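import Crest.Agent.Lib.Saxl.Rows

/-!
# Saxl foundation: a compact kernel-checked table of facts `Q a b c`

Shapes are stored as natural numbers (rows in base 128), so that adding rows is adding numbers.
A registry `r` gives the code of shape number `id`, `cj` the number of its conjugate (or `NONE`).
A table `t` of records gives facts `Q (S (r a)) (S (r b)) (S (r c))` deduced from earlier records.
All checks are Boolean and evaluated by the kernel, the soundness theorem is `Table.sound`.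
-/

set_option autoImplicit false
set_option linter.unusedSectionVars false

namespace Crest.Agent.Lib.Saxl.Tb

open Crest.Agent.Lib.Saxl

/-- Rows from a code, at most `f` of them. -/
def decL : ℕ → ℕ → List ℕ
  | 0, _ => []
  | f + 1, x => if x = 0 then [] else (x % 128) :: decL f (x / 128)

/-- Fuel: number of digits of a code. -/
abbrev FUEL : ℕ := 64

/-- The shape of a code. -/
noncomputable def S (x : ℕ) : YoungDiagram := yd (decL FUEL x)

/-- List equality, evaluated by the kernel. -/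
def lbeq : List ℕ → List ℕ → Bool
  | [], [] => true
  | x :: xs, y :: ys => Nat.beq x y && lbeq xs ys
  | _, _ => false

lemma eq_of_lbeq {a b : List ℕ} (h : lbeq a b = true) : a = b := by
  induction a generalizing b with
  | nil =>
    cases b with
    | nil => rfl
    | cons y ys => simp [lbeq] at h
  | cons x xs ih =>
    cases b with
    | nil => simp [lbeq] at h
    | cons y ys =>
      simp only [lbeq, Bool.and_eq_true] at h
      rw [Nat.eq_of_beq_eq_true h.1, ih h.2]

/-- digit `t` of `x`. -/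
lemma getD_decL_le (F : ℕ) (x t : ℕ) (ht : t < F) :
    (decL F x).getD t 0 = x / 128 ^ t % 128 := by
  induction F generalizing x t with
  | zero => omega
  | succ F ih =>
    by_cases hx : x = 0
    · subst hx
      simp [decL]
    · rw [decL, if_neg hx]
      cases t with
      | zero => simp
      | succ t =>
        have := ih (x / 128) t (by omega)
        simp only [List.getD_cons_succ]
        rw [this, Nat.div_div_eq_div_mul, pow_succ']

lemma add_div_mod128 (x y : ℕ) (h : x % 128 + y % 128 < 128) :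
    (x + y) % 128 = x % 128 + y % 128 ∧ (x + y) / 128 = x / 128 + y / 128 := by
  constructor <;> omega

lemma decL_add (F x y : ℕ)
    (h : ∀ t < F, x / 128 ^ t % 128 + y / 128 ^ t % 128 < 128) :
    decL F (x + y) = addR (decL F x) (decL F y) := by
  induction F generalizing x y with
  | zero => simp [decL, addR]
  | succ F ih =>
    by_cases hx : x = 0
    · subst hx
      simp [decL, addR]
    by_cases hy : y = 0
    · subst hy
      have h0 : decL (F + 1) 0 = [] := by simp [decL]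
      rw [h0, Nat.add_zero]
      cases decL (F + 1) x <;> rfl
    have h0 := h 0 (by omega)
    simp only [pow_zero, Nat.div_one] at h0
    obtain ⟨h1, h2⟩ := add_div_mod128 x y h0
    have hxy : x + y ≠ 0 := by omega
    rw [decL, if_neg hxy, decL, if_neg hx, decL, if_neg hy]
    simp only [addR]
    rw [h1, h2, ih]
    intro t ht
    have := h (t + 1) (by omega)
    rw [pow_succ', ← Nat.div_div_eq_div_mul, ← Nat.div_div_eq_div_mul] at this
    exact this

/-- Sortedness gives the absence of carries. -/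
lemma digit_le_top {x : ℕ} (h : srt (decL FUEL x) = true) (t : ℕ) (ht : t < FUEL) :
    x / 128 ^ t % 128 ≤ x % 128 := by
  induction t with
  | zero => simp
  | succ t ih =>
    have h1 := getD_succ_le h t
    rw [getD_decL_le _ _ _ ht, getD_decL_le _ _ _ (by omega)] at h1
    exact le_trans h1 (ih (by omega))

/-- Adding codes. -/
lemma S_add {x y : ℕ} (hx : srt (decL FUEL x) = true) (hy : srt (decL FUEL y) = true)
    (h : x % 128 + y % 128 < 128) : S (x + y) = addD (S x) (S y) := by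
  unfold S
  rw [decL_add, yd_addR hx hy]
  intro t ht
  have h1 := digit_le_top hx t ht
  have h2 := digit_le_top hy t ht
  omega

/-- The sentinel: no conjugate recorded. -/
abbrev NONE : ℕ := nat_lit 16777215

/-- Registry check for one shape. -/
def regOK (r cj : ℕ → ℕ) (id : ℕ) : Bool :=
  srt (decL FUEL (r id)) &&
    (Nat.beq (cj id) NONE || lbeq (decL FUEL (r (cj id))) (conjL (decL FUEL (r id))))

/-- A record: rule, two pointers, three shape numbers. -/
def fRu (v : ℕ) : ℕ := Nat.mod v (nat_lit 16)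
def fP (v : ℕ) : ℕ := Nat.mod (Nat.shiftRight v (nat_lit 4)) (nat_lit 16777216)
def fQ (v : ℕ) : ℕ := Nat.mod (Nat.shiftRight v (nat_lit 28)) (nat_lit 16777216)
def fA (v : ℕ) : ℕ := Nat.mod (Nat.shiftRight v (nat_lit 52)) (nat_lit 16777216)
def fB (v : ℕ) : ℕ := Nat.mod (Nat.shiftRight v (nat_lit 76)) (nat_lit 16777216)
def fC (v : ℕ) : ℕ := Nat.mod (Nat.shiftRight v (nat_lit 100)) (nat_lit 16777216)

/-- Checking `code a = code a1 + code a2` without carry. -/
def addO3 (z x y : ℕ) : Bool :=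
  and (Nat.beq z (Nat.add x y))
    (Nat.ble (Nat.add (Nat.mod x (nat_lit 128)) (Nat.mod y (nat_lit 128))) (nat_lit 127))

/-- Checking `code a = code a1 + code a2` without carry. -/
def addOK (r : ℕ → ℕ) (a a1 a2 : ℕ) : Bool := addO3 (r a) (r a1) (r a2)

/-- Not the sentinel. -/
def nn (x : ℕ) : Bool := not (Nat.beq x NONE)

/-- The same through conjugates (rows of `a` are the merged rows of `a1`, `a2`). -/
def uniO3 (r : ℕ → ℕ) (a a1 a2 : ℕ) : Bool :=
  and (and (nn a) (nn a1)) (and (nn a2) (addOK r a a1 a2))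

/-- The same through conjugates (rows of `a` are the merged rows of `a1`, `a2`). -/
def uniOK (r cj : ℕ → ℕ) (a a1 a2 : ℕ) : Bool := uniO3 r (cj a) (cj a1) (cj a2)

/-- Fast `p < i`. -/
def ltb (p i : ℕ) : Bool := Nat.ble (Nat.add p (nat_lit 1)) i

def ru0 (r : ℕ → ℕ) (v : ℕ) : Bool :=
  and (Nat.beq (fA v) (fB v)) (lbeq (decL FUEL (r (fC v))) [(decL FUEL (r (fA v))).sum])

def ru1b (r : ℕ → ℕ) (i v p q vp vq : ℕ) : Bool :=
  and (and (ltb p i) (ltb q i))
    (and (addOK r (fA v) (fA vp) (fA vq))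
      (and (addOK r (fB v) (fB vp) (fB vq)) (addOK r (fC v) (fC vp) (fC vq))))

def ru1 (r t : ℕ → ℕ) (i v : ℕ) : Bool := ru1b r i v (fP v) (fQ v) (t (fP v)) (t (fQ v))

def ru2b (r cj : ℕ → ℕ) (i v p q vp vq : ℕ) : Bool :=
  and (and (ltb p i) (ltb q i))
    (and (uniOK r cj (fA v) (fA vp) (fA vq))
      (and (uniOK r cj (fB v) (fB vp) (fB vq)) (addOK r (fC v) (fC vp) (fC vq))))

def ru2 (r cj t : ℕ → ℕ) (i v : ℕ) : Bool := ru2b r cj i v (fP v) (fQ v) (t (fP v)) (t (fQ v))

def ru3b (r cj : ℕ → ℕ) (i v p q vp vq : ℕ) : Bool :=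
  and (and (ltb p i) (ltb q i))
    (and (uniOK r cj (fA v) (fA vp) (fA vq))
      (and (addOK r (fB v) (fB vp) (fB vq)) (uniOK r cj (fC v) (fC vp) (fC vq))))

def ru3 (r cj t : ℕ → ℕ) (i v : ℕ) : Bool := ru3b r cj i v (fP v) (fQ v) (t (fP v)) (t (fQ v))

def ru4b (r cj : ℕ → ℕ) (i v p q vp vq : ℕ) : Bool :=
  and (and (ltb p i) (ltb q i))
    (and (addOK r (fA v) (fA vp) (fA vq))
      (and (uniOK r cj (fB v) (fB vp) (fB vq)) (uniOK r cj (fC v) (fC vp) (fC vq))))

def ru4 (r cj t : ℕ → ℕ) (i v : ℕ) : Bool := ru4b r cj i v (fP v) (fQ v) (t (fP v)) (t (fQ v))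

def ru5b (i v p vp : ℕ) : Bool :=
  and (ltb p i) (and (Nat.beq (fA v) (fB vp)) (and (Nat.beq (fB v) (fA vp)) (Nat.beq (fC v) (fC vp))))

def ru5 (t : ℕ → ℕ) (i v : ℕ) : Bool := ru5b i v (fP v) (t (fP v))

def ru6b (i v p vp : ℕ) : Bool :=
  and (ltb p i) (and (Nat.beq (fA v) (fA vp)) (and (Nat.beq (fB v) (fC vp)) (Nat.beq (fC v) (fB vp))))

def ru6 (t : ℕ → ℕ) (i v : ℕ) : Bool := ru6b i v (fP v) (t (fP v))

def ru7c (i v p : ℕ) (x y z : ℕ) (n1 n2 : ℕ) : Bool :=
  and (and (ltb p i) (and (nn n1) (nn n2)))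
    (and (Nat.beq (fA v) x) (and (Nat.beq (fB v) y) (Nat.beq (fC v) z)))

def ru7 (cj t : ℕ → ℕ) (i v : ℕ) : Bool :=
  ru7c i v (fP v) (cj (fA (t (fP v)))) (cj (fB (t (fP v)))) (fC (t (fP v)))
    (cj (fA (t (fP v)))) (cj (fB (t (fP v))))

def ru8 (cj t : ℕ → ℕ) (i v : ℕ) : Bool :=
  ru7c i v (fP v) (cj (fA (t (fP v)))) (fB (t (fP v))) (cj (fC (t (fP v))))
    (cj (fA (t (fP v)))) (cj (fC (t (fP v))))

def ru9 (cj t : ℕ → ℕ) (i v : ℕ) : Bool :=
  ru7c i v (fP v) (fA (t (fP v))) (cj (fB (t (fP v)))) (cj (fC (t (fP v))))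
    (cj (fB (t (fP v)))) (cj (fC (t (fP v))))

def ru10 (B : List (List ℕ × List ℕ × List ℕ)) (r : ℕ → ℕ) (v : ℕ) : Bool :=
  match B[fP v]? with
  | some x => lbeq (decL FUEL (r (fA v))) x.1 && lbeq (decL FUEL (r (fB v))) x.2.1 &&
      lbeq (decL FUEL (r (fC v))) x.2.2
  | none => false

def ru11b (r : ℕ → ℕ) (i v p q vp vq : ℕ) : Bool :=
  and (and (ltb p i) (ltb q i))
    (and (and (Nat.beq (fB v) (fA v)) (and (Nat.beq (fB vp) (fA vp)) (Nat.beq (fB vq) (fA vq))))
      (and (addOK r (fA v) (fA vp) (fA vq)) (addOK r (fC v) (fC vp) (fC vq))))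

def ru11 (r t : ℕ → ℕ) (i v : ℕ) : Bool := ru11b r i v (fP v) (fQ v) (t (fP v)) (t (fQ v))

def ru12b (r cj : ℕ → ℕ) (i v p q vp vq : ℕ) : Bool :=
  and (and (ltb p i) (ltb q i))
    (and (and (Nat.beq (fB v) (fA v)) (and (Nat.beq (fB vp) (fA vp)) (Nat.beq (fB vq) (fA vq))))
      (and (uniOK r cj (fA v) (fA vp) (fA vq)) (addOK r (fC v) (fC vp) (fC vq))))

def ru12 (r cj t : ℕ → ℕ) (i v : ℕ) : Bool := ru12b r cj i v (fP v) (fQ v) (t (fP v)) (t (fQ v))

/-- Check of a record with value `v`. -/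
def recV (B : List (List ℕ × List ℕ × List ℕ)) (r cj t : ℕ → ℕ) (i v : ℕ) : ℕ → Bool
  | 0 => ru0 r v
  | 1 => ru1 r t i v
  | 2 => ru2 r cj t i v
  | 3 => ru3 r cj t i v
  | 4 => ru4 r cj t i v
  | 5 => ru5 t i v
  | 6 => ru6 t i v
  | 7 => ru7 cj t i v
  | 8 => ru8 cj t i v
  | 9 => ru9 cj t i v
  | 10 => ru10 B r v
  | 11 => ru11 r t i v
  | 12 => ru12 r cj t i v
  | _ => false

/-- Check of record `i`. `B` is a list of externally proved facts. -/
def recOK (B : List (List ℕ × List ℕ × List ℕ)) (r cj t : ℕ → ℕ) (i : ℕ) : Bool :=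
  recV B r cj t i (t i) (fRu (t i))

/-- What a record claims. -/
def Fact (r t : ℕ → ℕ) (i : ℕ) : Prop :=
  Q (S (r (fA (t i)))) (S (r (fB (t i)))) (S (r (fC (t i))))

variable {r cj t : ℕ → ℕ} {M : ℕ}

lemma S_conj (hR : ∀ id, regOK r cj id = true) {id : ℕ} (h : cj id ≠ NONE) :
    S (r (cj id)) = (S (r id)).transpose := by
  have h1 := hR id
  simp only [regOK, Bool.and_eq_true, Bool.or_eq_true] at h1
  rcases h1.2 with h2 | h2
  · exact absurd (Nat.eq_of_beq_eq_true h2) h
  · unfold S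
    rw [eq_of_lbeq h2, yd_conjL h1.1]

lemma srtOf (hR : ∀ id, regOK r cj id = true) (id : ℕ) : srt (decL FUEL (r id)) = true := by
  have h1 := hR id
  simp only [regOK, Bool.and_eq_true] at h1
  exact h1.1

lemma S_of_addOK (hR : ∀ id, regOK r cj id = true) {a a1 a2 : ℕ} (h : addOK r a a1 a2 = true) :
    S (r a) = addD (S (r a1)) (S (r a2)) := by
  simp only [addOK, addO3, Bool.and_eq_true] at h
  rw [Nat.eq_of_beq_eq_true h.1]
  exact S_add (srtOf hR _) (srtOf hR _) (by
    have := Nat.le_of_ble_eq_true h.2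
    change _ % 128 + _ % 128 ≤ 127 at this
    omega)

lemma ne_of_nn {x : ℕ} (h : nn x = true) : x ≠ NONE := by
  intro e
  simp [nn, e] at h

lemma S_of_uniOK (hR : ∀ id, regOK r cj id = true) {a a1 a2 : ℕ} (h : uniOK r cj a a1 a2 = true) :
    S (r a) = unionD (S (r a1)) (S (r a2)) := by
  simp only [uniOK, uniO3, Bool.and_eq_true] at h
  obtain ⟨⟨h1, h2⟩, h3, h4⟩ := h
  have e1 := S_of_addOK hR h4
  rw [S_conj hR (ne_of_nn h1), S_conj hR (ne_of_nn h2), S_conj hR (ne_of_nn h3)] at e1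
  unfold unionD
  rw [← e1, YoungDiagram.transpose_transpose]

lemma eq_bq {x y : ℕ} (h : Nat.beq x y = true) : x = y := Nat.eq_of_beq_eq_true h

/-- **Soundness.** -/
theorem sound {B : List (List ℕ × List ℕ × List ℕ)} (hB : ∀ x ∈ B, Gd x)
    (hR : ∀ id, regOK r cj id = true) {N : ℕ} (hT : ∀ i < N, recOK B r cj t i = true) :
    ∀ i < N, Fact r t i := by
  intro i
  induction i using Nat.strong_induction_on with
  | _ i ih =>
    intro hi
    have h0 := hT i hi
    unfold Fact
    have key : ∀ p, ltb p i = true → Q (S (r (fA (t p)))) (S (r (fB (t p)))) (S (r (fC (t p)))) := by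
      intro p hp
      have h1 : p + 1 ≤ i := Nat.le_of_ble_eq_true hp
      exact ih p (by omega) (by omega)
    unfold recOK at h0
    generalize t i = v at h0 ⊢
    generalize fRu v = u at h0
    match u, h0 with
    | 0, h0 =>
      simp only [recV, ru0, Bool.and_eq_true] at h0
      have hab := eq_bq h0.1
      rw [hab]
      have hc : S (r (fC v)) = rowD (S (r (fB v))).card := by
        unfold S
        rw [eq_of_lbeq h0.2, yd_single, card_yd (srtOf hR _), hab]
      rw [hc]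
      exact Q.row _
    | 1, h0 =>
      simp only [recV, ru1, ru1b, Bool.and_eq_true] at h0
      obtain ⟨⟨h1, h2⟩, h3, h4, h5⟩ := h0
      rw [S_of_addOK hR h3, S_of_addOK hR h4, S_of_addOK hR h5]
      exact (key _ h1).add (key _ h2)
    | 2, h0 =>
      simp only [recV, ru2, ru2b, Bool.and_eq_true] at h0
      obtain ⟨⟨h1, h2⟩, h3, h4, h5⟩ := h0
      rw [S_of_uniOK hR h3, S_of_uniOK hR h4, S_of_addOK hR h5]
      exact (key _ h1).union12 (key _ h2)
    | 3, h0 =>
      simp only [recV, ru3, ru3b, Bool.and_eq_true] at h0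
      obtain ⟨⟨h1, h2⟩, h3, h4, h5⟩ := h0
      rw [S_of_uniOK hR h3, S_of_addOK hR h4, S_of_uniOK hR h5]
      exact (key _ h1).union13 (key _ h2)
    | 4, h0 =>
      simp only [recV, ru4, ru4b, Bool.and_eq_true] at h0
      obtain ⟨⟨h1, h2⟩, h3, h4, h5⟩ := h0
      rw [S_of_addOK hR h3, S_of_uniOK hR h4, S_of_uniOK hR h5]
      exact (key _ h1).union23 (key _ h2)
    | 5, h0 =>
      simp only [recV, ru5, ru5b, Bool.and_eq_true] at h0
      obtain ⟨h1, h2, h3, h4⟩ := h0
      rw [eq_bq h2, eq_bq h3, eq_bq h4]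
      exact (key _ h1).symm12
    | 6, h0 =>
      simp only [recV, ru6, ru6b, Bool.and_eq_true] at h0
      obtain ⟨h1, h2, h3, h4⟩ := h0
      rw [eq_bq h2, eq_bq h3, eq_bq h4]
      exact (key _ h1).symm23
    | 7, h0 =>
      simp only [recV, ru7, ru7c, Bool.and_eq_true] at h0
      obtain ⟨⟨h1, n1, n2⟩, h2, h3, h4⟩ := h0
      rw [eq_bq h2, eq_bq h3, eq_bq h4, S_conj hR (ne_of_nn n1), S_conj hR (ne_of_nn n2)]
      exact (key _ h1).conj12
    | 8, h0 =>
      simp only [recV, ru8, ru7c, Bool.and_eq_true] at h0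
      obtain ⟨⟨h1, n1, n2⟩, h2, h3, h4⟩ := h0
      rw [eq_bq h2, eq_bq h3, eq_bq h4, S_conj hR (ne_of_nn n1), S_conj hR (ne_of_nn n2)]
      exact (key _ h1).conj13
    | 9, h0 =>
      simp only [recV, ru9, ru7c, Bool.and_eq_true] at h0
      obtain ⟨⟨h1, n1, n2⟩, h2, h3, h4⟩ := h0
      rw [eq_bq h2, eq_bq h3, eq_bq h4, S_conj hR (ne_of_nn n1), S_conj hR (ne_of_nn n2)]
      exact (key _ h1).conj23
    | 10, h0 =>
      simp only [recV, ru10] at h0
      split at h0
      · rename_i x hx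
        simp only [Bool.and_eq_true] at h0
        obtain ⟨⟨h1, h2⟩, h3⟩ := h0
        have hG := hB x (List.mem_of_getElem? hx)
        unfold S
        rw [eq_of_lbeq h1, eq_of_lbeq h2, eq_of_lbeq h3]
        exact hG.2.2.2
      · cases h0
    | 11, h0 =>
      simp only [recV, ru11, ru11b, Bool.and_eq_true] at h0
      obtain ⟨⟨h1, h2⟩, ⟨b0, b1, b2⟩, h3, h5⟩ := h0
      have k1 := key _ h1
      have k2 := key _ h2
      rw [eq_bq b1] at k1
      rw [eq_bq b2] at k2
      rw [eq_bq b0, S_of_addOK hR h3, S_of_addOK hR h5]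
      exact k1.add k2
    | 12, h0 =>
      simp only [recV, ru12, ru12b, Bool.and_eq_true] at h0
      obtain ⟨⟨h1, h2⟩, ⟨b0, b1, b2⟩, h3, h5⟩ := h0
      have k1 := key _ h1
      have k2 := key _ h2
      rw [eq_bq b1] at k1
      rw [eq_bq b2] at k2
      rw [eq_bq b0, S_of_uniOK hR h3, S_of_addOK hR h5]
      exact k1.union12 k2
    | _ + 13, h0 =>
      simp only [recV] at h0
      cases h0

end Crest.Agent.Lib.Saxl.Tb
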