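import Crest.Agent.Lib.Saxl.Tb.Core

/-!
# Saxl foundation: data layer of the table

Search trees of chunks of fixed-width fields; the registry and the records are functions read from
such trees; checks over ranges; enumeration of all partitions with at most as many rows as columns;
the theorem turning a complete level of the table into a statement about all diagrams.
-/

set_option autoImplicit false
set_option linter.unusedSectionVars false

namespace Crest.Agent.Lib.Saxl.Tb

open Crest.Agent.Lib.Saxl

/-- A search tree of chunks: `leaf b w v` holds the fields `b, b+1, ...` of `w` bits in `v`. -/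
inductive NT where
  | leaf (b w v : ℕ)
  | node (m : ℕ) (l r : NT)

/-- Reading a field. -/
noncomputable def NT.find (T : NT) : ℕ → ℕ :=
  NT.rec (motive := fun _ => ℕ → ℕ)
    (fun b w v x => Nat.mod (Nat.shiftRight v (Nat.mul (Nat.sub x b) w)) (Nat.pow (nat_lit 2) w))
    (fun m _ _ il ir x => cond (Nat.ble m x) (ir x) (il x)) T

/-- The code of shape number `id` (below `M`; the empty shape above). -/
noncomputable def rOf (RT : NT) (M id : ℕ) : ℕ :=
  cond (Nat.ble M id) (nat_lit 0) (Nat.shiftRight (RT.find id) (nat_lit 24))

/-- The number of the conjugate of shape number `id`. -/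
noncomputable def cjOf (RT : NT) (M id : ℕ) : ℕ :=
  cond (Nat.ble M id) NONE (Nat.mod (RT.find id) (nat_lit 16777216))

/-- Check of a range of the registry. -/
noncomputable def regRange (RT : NT) (M lo len : ℕ) : Bool :=
  Nat.rec true (fun n ih => and (regOK (rOf RT M) (cjOf RT M) (Nat.add lo n)) ih) len

/-- Check of a range of the records. -/
noncomputable def recRange (B : List (List ℕ × List ℕ × List ℕ)) (RT TT : NT) (M lo len : ℕ) : Bool :=
  Nat.rec true (fun n ih => and (recOK B (rOf RT M) (cjOf RT M) TT.find (Nat.add lo n)) ih) len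

lemma regRange_spec {RT : NT} {M lo len : ℕ} (h : regRange RT M lo len = true) :
    ∀ i, lo ≤ i → i < lo + len → regOK (rOf RT M) (cjOf RT M) i = true := by
  induction len with
  | zero => intro i h1 h2; omega
  | succ n ih =>
    intro i h1 h2
    have h3 : regRange RT M lo (n + 1) =
      and (regOK (rOf RT M) (cjOf RT M) (Nat.add lo n)) (regRange RT M lo n) := rfl
    rw [h3, Bool.and_eq_true] at h
    by_cases h4 : i < lo + n
    · exact ih h.2 i h1 h4
    · have : i = lo + n := by omega
      rw [this]
      exact h.1

lemma recRange_spec {B : List (List ℕ × List ℕ × List ℕ)} {RT TT : NT} {M lo len : ℕ}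
    (h : recRange B RT TT M lo len = true) :
    ∀ i, lo ≤ i → i < lo + len → recOK B (rOf RT M) (cjOf RT M) TT.find i = true := by
  induction len with
  | zero => intro i h1 h2; omega
  | succ n ih =>
    intro i h1 h2
    have h3 : recRange B RT TT M lo (n + 1) =
      and (recOK B (rOf RT M) (cjOf RT M) TT.find (Nat.add lo n)) (recRange B RT TT M lo n) := rfl
    rw [h3, Bool.and_eq_true] at h
    by_cases h4 : i < lo + n
    · exact ih h.2 i h1 h4
    · have : i = lo + n := by omega
      rw [this]
      exact h.1

/-- Gluing consecutive ranges. -/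
lemma range_glue {P : ℕ → Prop} {a b c : ℕ} (h1 : ∀ i, a ≤ i → i < b → P i)
    (h2 : ∀ i, b ≤ i → i < c → P i) : ∀ i, a ≤ i → i < c → P i := by
  intro i h3 h4
  by_cases h5 : i < b
  · exact h1 i h3 h5
  · exact h2 i (by omega) h4

lemma regOK_all {RT : NT} {M : ℕ}
    (h : ∀ i, 0 ≤ i → i < M → regOK (rOf RT M) (cjOf RT M) i = true) :
    ∀ id, regOK (rOf RT M) (cjOf RT M) id = true := by
  intro id
  by_cases h1 : id < M
  · exact h id (Nat.zero_le _) h1
  · have h2 : Nat.ble M id = true := Nat.ble_eq_true_of_le (by omega)
    have e1 : rOf RT M id = 0 := by simp [rOf, h2]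
    have e2 : cjOf RT M id = NONE := by simp [cjOf, h2]
    have e3 : decL FUEL 0 = [] := by
      simp [decL, FUEL]
    simp [regOK, e1, e2, e3, srt]

/-! ### All partitions with at most as many rows as columns -/

/-- All partitions of `n` with at most `f` parts, all parts at most `m` and positive. -/
noncomputable def parts (f : ℕ) : ℕ → ℕ → List (List ℕ) :=
  Nat.rec (fun n _ => cond (Nat.beq n 0) [[]] [])
    (fun f ih n m => cond (Nat.beq n 0) [[]]
      (cond (Nat.ble n (Nat.mul (f + 1) m))
        ((List.range' 1 (min n m)).flatMap fun k => (ih (n - k) k).map (k :: ·)) []))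
    f

lemma mem_parts (f : ℕ) : ∀ (l : List ℕ) (n m : ℕ), l.Pairwise (· ≥ ·) → (∀ x ∈ l, 0 < x) →
    (∀ x ∈ l, x ≤ m) → l.sum = n → l.length ≤ f → l ∈ parts f n m := by
  induction f with
  | zero =>
    intro l n m _ _ _ h4 h5
    have : l = [] := List.length_eq_zero_iff.1 (by omega)
    subst this
    simp at h4
    subst h4
    simp [parts]
  | succ f ih =>
    intro l n m h1 h2 h3 h4 h5
    cases l with
    | nil =>
      simp at h4
      subst h4
      simp [parts]
    | cons x xs =>
      have hx : 0 < x := h2 x (by simp)
      have hxm : x ≤ m := h3 x (by simp)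
      simp only [List.sum_cons] at h4
      have hn : n ≠ 0 := by omega
      have hb : Nat.beq n 0 = false := by
        rw [← Bool.not_eq_true, ← ne_eq]
        intro h
        exact hn (Nat.eq_of_beq_eq_true h)
      have hle : n ≤ (f + 1) * m := by
        have h6 := List.sum_le_card_nsmul (x :: xs) m h3
        simp only [List.sum_cons, List.length_cons, smul_eq_mul] at h6 h5
        have h7 : (xs.length + 1) * m ≤ (f + 1) * m := Nat.mul_le_mul_right _ h5
        omega
      have e : parts (f + 1) n m = cond (Nat.beq n 0) [[]]
        (cond (Nat.ble n (Nat.mul (f + 1) m))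
        ((List.range' 1 (min n m)).flatMap fun k => (parts f (n - k) k).map (k :: ·)) []) := rfl
      have hb2 : Nat.ble n (Nat.mul (f + 1) m) = true := Nat.ble_eq_true_of_le hle
      rw [e, hb, hb2]
      simp only [cond_false, cond_true, List.mem_flatMap, List.mem_map]
      refine ⟨x, ?_, xs, ?_, rfl⟩
      · rw [List.mem_range'_1]
        have : x ≤ min n m := le_min (by omega) hxm
        omega
      · apply ih
        · exact (List.pairwise_cons.1 h1).2
        · intro y hy; exact h2 y (by simp [hy])
        · intro y hy; exact (List.pairwise_cons.1 h1).1 y hy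
        · omega
        · simpa using h5

/-- All partitions of `n` with at most as many rows as columns. -/
noncomputable def canonParts (n : ℕ) : List (List ℕ) :=
  (List.range' 1 n).flatMap fun k => (parts (k - 1) (n - k) k).map (k :: ·)

lemma srt_of_pairwise {l : List ℕ} (h : l.Pairwise (· ≥ ·)) : srt l = true := by
  induction l with
  | nil => rfl
  | cons x l ih =>
    cases l with
    | nil => rfl
    | cons y l =>
      rw [srt_cons_cons, Bool.and_eq_true]
      exact ⟨Nat.ble_eq_true_of_le ((List.pairwise_cons.1 h).1 y (by simp)),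
        ih (List.pairwise_cons.1 h).2⟩

lemma rowLens_pairwise (c : YoungDiagram) : c.rowLens.Pairwise (· ≥ ·) :=
  c.rowLens_sorted.pairwise

lemma srt_rowLens (c : YoungDiagram) : srt c.rowLens = true := srt_of_pairwise (rowLens_pairwise c)

lemma yd_rowLens (c : YoungDiagram) : yd c.rowLens = c := by
  unfold yd
  rw [dif_pos (srt_rowLens c)]
  exact YoungDiagram.ofRowLens_to_rowLens_eq_self

lemma sum_rowLens (c : YoungDiagram) : c.rowLens.sum = c.card := by
  rw [← card_yd (srt_rowLens c), yd_rowLens]

lemma rowLens_mem_canon (c : YoungDiagram) {n : ℕ} (hn : 0 < n) (hc : c.card = n)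
    (hcan : c.colLen 0 ≤ c.rowLen 0) : c.rowLens ∈ canonParts n := by
  have hs := sum_rowLens c
  have hlen : c.rowLens.length = c.colLen 0 := c.length_rowLens
  have hpw := rowLens_pairwise c
  have hpos : ∀ x ∈ c.rowLens, 0 < x := c.pos_of_mem_rowLens
  generalize hl : c.rowLens = l at *
  cases l with
  | nil =>
    simp at hs
    omega
  | cons x xs =>
    have hx : x = c.rowLen 0 := by
      have h0 : 0 < c.rowLens.length := by rw [hl]; simp
      have h1 : c.rowLens[0] = c.rowLen 0 := YoungDiagram.get_rowLens
      simp only [hl] at h1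
      simpa using h1
    simp only [List.sum_cons] at hs
    have hx0 : 0 < x := hpos x (by simp)
    unfold canonParts
    simp only [List.mem_flatMap, List.mem_map]
    refine ⟨x, ?_, xs, ?_, rfl⟩
    · rw [List.mem_range'_1]
      omega
    · apply mem_parts
      · exact (List.pairwise_cons.1 hpw).2
      · intro y hy; exact hpos y (by simp [hy])
      · intro y hy; exact (List.pairwise_cons.1 hpw).1 y hy
      · omega
      · simp only [List.length_cons] at hlen
        omega

/-! ### A complete level -/

/-- All canonical partitions in a list are present as records, found by the index table `lev`. -/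
noncomputable def chk (r t lev : ℕ → ℕ) (N x : ℕ) (ls : List (List ℕ)) : ℕ → Bool :=
  List.rec (fun _ => true)
    (fun l _ ih j =>
      let i := lev j
      and (and (Nat.ble (Nat.add i 1) N) (Nat.beq (fA (t i)) x))
        (and (and (Nat.beq (fB (t i)) x) (lbeq (decL FUEL (r (fC (t i)))) l)) (ih (Nat.add j 1))))
    ls

lemma chk_spec {r t lev : ℕ → ℕ} {N x : ℕ} {ls : List (List ℕ)} {j : ℕ}
    (h : chk r t lev N x ls j = true) {l : List ℕ} (hl : l ∈ ls) :
    ∃ i < N, fA (t i) = x ∧ fB (t i) = x ∧ decL FUEL (r (fC (t i))) = l := by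
  induction ls generalizing j with
  | nil => simp at hl
  | cons a ls ih =>
    have e : chk r t lev N x (a :: ls) j =
      and (and (Nat.ble (Nat.add (lev j) 1) N) (Nat.beq (fA (t (lev j))) x))
        (and (and (Nat.beq (fB (t (lev j))) x) (lbeq (decL FUEL (r (fC (t (lev j))))) a))
          (chk r t lev N x ls (Nat.add j 1))) := rfl
    rw [e] at h
    simp only [Bool.and_eq_true] at h
    obtain ⟨⟨h1, h2⟩, ⟨h3, h4⟩, h5⟩ := h
    rcases List.mem_cons.1 hl with rfl | h6
    · have h7 : lev j + 1 ≤ N := Nat.le_of_ble_eq_true h1
      exact ⟨lev j, by omega, Nat.eq_of_beq_eq_true h2, Nat.eq_of_beq_eq_true h3, eq_of_lbeq h4⟩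
    · exact ih h5 h6

/-- The canonical partitions of `n` with first part `k`. -/
noncomputable def bucket (n k : ℕ) : List (List ℕ) := (parts (k - 1) (n - k) k).map (k :: ·)

/-- The canonical partitions of `n` with first part in a range. -/
noncomputable def buckets (n lo len : ℕ) : List (List ℕ) :=
  (List.range' lo len).flatMap (bucket n)

/-- All canonical partitions with first part `k` are present. -/
def Cov (r t : ℕ → ℕ) (N x n k : ℕ) : Prop :=
  ∀ l ∈ bucket n k, ∃ i < N, fA (t i) = x ∧ fB (t i) = x ∧ decL FUEL (r (fC (t i))) = l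

lemma cov_of_chk {r t lev : ℕ → ℕ} {N x n lo len j : ℕ}
    (h : chk r t lev N x (buckets n lo len) j = true) :
    ∀ k, lo ≤ k → k < lo + len → Cov r t N x n k := by
  intro k h1 h2 l hl
  refine chk_spec h ?_
  unfold buckets
  rw [List.mem_flatMap]
  exact ⟨k, by rw [List.mem_range'_1]; omega, hl⟩

/-- **A complete level.** -/
theorem level_final {r cj t : ℕ → ℕ} {N x n : ℕ}
    (hF : ∀ i < N, Fact r t i) (hR : ∀ id, regOK r cj id = true)
    (hx : lbeq (conjL (decL FUEL (r x))) (decL FUEL (r x)) = true)
    (hn : 0 < n) (h : ∀ k, 1 ≤ k → k < n + 1 → Cov r t N x n k)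
    (c : YoungDiagram) (hc : c.card = n) : Q (S (r x)) (S (r x)) c := by
  have key : ∀ c : YoungDiagram, c.card = n → c.colLen 0 ≤ c.rowLen 0 →
      Q (S (r x)) (S (r x)) c := by
    intro c hc hcan
    have hm := rowLens_mem_canon c hn hc hcan
    unfold canonParts at hm
    rw [List.mem_flatMap] at hm
    obtain ⟨k, hk, hl⟩ := hm
    rw [List.mem_range'_1] at hk
    obtain ⟨i, hi, h1, h2, h3⟩ := h k hk.1 (by omega) _ hl
    have h4 := hF i hi
    unfold Fact at h4
    rw [h1, h2] at h4
    have h5 : S (r (fC (t i))) = c := by
      unfold S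
      rw [h3, yd_rowLens]
    rwa [h5] at h4
  by_cases hcan : c.colLen 0 ≤ c.rowLen 0
  · exact key c hc hcan
  · have h1 : c.transpose.colLen 0 ≤ c.transpose.rowLen 0 := by
      rw [YoungDiagram.colLen_transpose, YoungDiagram.rowLen_transpose]
      omega
    have h2 : c.transpose.card = n := by
      rw [← hc]
      change c.transpose.cells.card = c.cells.card
      simp [YoungDiagram.transpose]
    have h3 := key _ h2 h1
    have h4 := h3.conj23
    rw [YoungDiagram.transpose_transpose] at h4
    have hs := (srtOf hR x)
    have e : (S (r x)).transpose = S (r x) := by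
      unfold S
      rw [← yd_conjL hs, eq_of_lbeq hx]
    rwa [e] at h4

lemma getD_snoc_zero (l : List ℕ) (i : ℕ) : (l ++ [0]).getD i 0 = l.getD i 0 := by
  induction l generalizing i with
  | nil => cases i <;> simp
  | cons x l ih =>
    cases i with
    | zero => simp
    | succ i => simpa using ih i

/-- A zero row at the end does not change the diagram. -/
lemma yd_snoc_zero {l : List ℕ} (h1 : srt l = true) (h2 : srt (l ++ [0]) = true) :
    yd (l ++ [0]) = yd l := by
  ext c
  rw [YoungDiagram.mem_cells, YoungDiagram.mem_cells, mem_yd h1, mem_yd h2, getD_snoc_zero]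

end Crest.Agent.Lib.Saxl.Tb
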